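import Vale.Agent.P244I69.Curv
import Vale.Agent.P244Z.GeoDefs

/-! The Ricci and scalar curvature in a chart. -/

set_option maxSynthPendingDepth 3
set_option linter.unusedSectionVars false
set_option linter.style.haveILetI false

namespace Vale.Agent.P244I

open scoped Manifold ContDiff Topology
open Bundle Filter VectorField IsManifold Vale.Agent.P211 Vale.Agent.P211Z
open Vale.Agent.P244Z.Geo (pd christoffel ricci scalar inChart Tensor)

noncomputable section

variable {n : ℕ} {M : Type} [TopologicalSpace M] [ChartedSpace (Euc n) M] [Smooth (Euc n) M]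
  [T2Space M] {e : OpenPartialHomeomorph M (Euc n)} {z : Euc n}

/-- the coordinate vectors of the model space -/
abbrev sg (i : Fin n) : Euc n := EuclideanSpace.single i 1

/-- charts of the maximal atlas -/
abbrev Mx (e : OpenPartialHomeomorph M (Euc n)) : Prop := e ∈ maximalAtlas 𝓘(ℝ, Euc n) ∞ M

theorem md_chart (he : Mx e) : e.MDifferentiable 𝓘(ℝ, Euc n) 𝓘(ℝ, Euc n) :=
  ⟨(contMDiffOn_of_mem_maximalAtlas he).mdifferentiableOn (by simp),
    (contMDiffOn_symm_of_mem_maximalAtlas he).mdifferentiableOn (by simp)⟩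

theorem chart_ld (he : Mx e) {q : M} (hq : q ∈ e.source) :
    IsLocalDiffeomorphAt 𝓘(ℝ, Euc n) 𝓘(ℝ, Euc n) ∞ e q :=
  ⟨⟨e.toPartialEquiv, e.open_source, e.open_target, contMDiffOn_of_mem_maximalAtlas he,
    contMDiffOn_symm_of_mem_maximalAtlas he⟩, hq, Set.eqOn_refl _ _⟩

/-- constant fields on the model space -/
def cst (a : Euc n) : Fld (Euc n) (Euc n) := fun _ => a

theorem sm_cst (a z : Euc n) : Sm (cst a) z :=
  ((contMDiff_vectorSpace_iff_contDiff
    (V := fun z : Euc n => (a : TangentSpace 𝓘(ℝ, Euc n) z))).2 contDiff_const) z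

/-- the coordinate vector -/
def ds (e : OpenPartialHomeomorph M (Euc n)) (z : Euc n) : Euc n →L[ℝ] Tan (Euc n) (e.symm z) :=
  mfderiv 𝓘(ℝ, Euc n) 𝓘(ℝ, Euc n) e.symm z

theorem pull_cst (he : Mx e) (hz : z ∈ e.target) (a : Euc n) :
    pull e (cst a) (e.symm z) = ds e z a := by
  refine ((inv_of_ld (chart_ld he (e.map_target hz))).inverse_apply_eq).mpr ?_
  exact (congrArg (fun T => T a) ((md_chart he).comp_symm_deriv hz)).symm

theorem ds_surj (he : Mx e) (hz : z ∈ e.target) (v : Tan (Euc n) (e.symm z)) :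
    ∃ a, ds e z a = v :=
  ⟨dm (Euc n) e (e.symm z) v, (pull_cst he hz _).symm.trans
    ((inv_of_ld (chart_ld he (e.map_target hz))).inverse_apply_self _)⟩

theorem ds_sum (a : Euc n) : ds e z a = ∑ k, a k • ds e z (sg k) := by
  have h : a = ∑ k, a k • sg k := by
    ext j
    simp [Pi.single_apply]
  conv_lhs => rw [h]
  simp only [map_sum, map_smul]

theorem d_ds (he : Mx e) (hz : z ∈ e.target) (φ : SF (Euc n) M) (a : Euc n) :
    mvfderiv 𝓘(ℝ, Euc n) φ (e.symm z) (ds e z a) = fderiv ℝ (fun x => φ (e.symm x)) z a := by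
  refine (mvfderiv_comp_apply z (φ.mdiff _) ((md_chart he).mdifferentiableAt_symm hz) a).symm.trans
    ?_
  rw [mvfderiv, mfderiv_eq_fderiv]
  rfl

theorem ev_iff (hz : z ∈ e.target) {P : M → Prop} :
    (∀ᶠ q in 𝓝 (e.symm z), P q) ↔ ∀ᶠ y in 𝓝 z, P (e.symm y) := by
  rw [← e.symm.map_nhds_eq hz, eventually_map]

/-- global fields and functions which near `e.symm z` are the coordinate fields and functions -/
structure IsCoord (e : OpenPartialHomeomorph M (Euc n)) (z : Euc n) (C : Fin n → VF (Euc n) M)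
    (f : Fin n → SF (Euc n) M) : Prop where
  mem : z ∈ e.target
  fld : ∀ i, ∀ᶠ y in 𝓝 z, C i (e.symm y) = ds e y (sg i)
  fn : ∀ i, ∀ᶠ y in 𝓝 z, f i (e.symm y) = y i
  brk : ∀ i j, ∀ᶠ y in 𝓝 z, mlieBracket 𝓘(ℝ, Euc n) (C i) (C j) (e.symm y) = 0

theorem exists_coord (he : Mx e) (hz : z ∈ e.target) : ∃ C f, IsCoord e z C f := by
  have hs := e.open_source.mem_nhds (e.map_target hz)
  have ht := e.open_target.mem_nhds hz
  choose C hC using fun i : Fin n => cut_section (E := Euc n) hs (σ := pull e (cst (sg i)))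
    (fun q hq => ContMDiffAt.contMDiffWithinAt (Sm.pull (chart_ld he hq) (sm_cst _ _)))
  choose f hf using fun i : Fin n => cut_fun (E := Euc n) hs (u := fun q => e q i)
    ((EuclideanSpace.proj (𝕜 := ℝ) i).contDiff.contMDiff.comp_contMDiffOn
      (contMDiffOn_of_mem_maximalAtlas he))
  refine ⟨C, f, hz, fun i => ?_, fun i => ?_, fun i j => (ev_iff hz
    (P := fun q => mlieBracket 𝓘(ℝ, Euc n) (C i) (C j) q = 0)).1 ?_⟩
  · filter_upwards [(ev_iff hz).1 (hC i), ht] with y h1 h2
    rw [h1, pull_cst he h2]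
  · filter_upwards [(ev_iff hz).1 (hf i), ht] with y h1 h2
    rw [h1, e.right_inv h2]
  · filter_upwards [(hC i).eventually_nhds, (hC j).eventually_nhds, hs] with q h1 h2 h3
    rw [Filter.EventuallyEq.mlieBracket_vectorField_eq h1 h2,
      pull_bracket (chart_ld he h3) (sm_cst _ _).md (sm_cst _ _).md]
    have h4 : mlieBracket 𝓘(ℝ, Euc n) (cst (sg i)) (cst (sg j)) (e q) = 0 := by
      rw [← mlieBracketWithin_univ, mlieBracketWithin_eq_lieBracketWithin]
      change fderivWithin ℝ (fun _ : Euc n => sg j) Set.univ (e q) (sg i)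
        - fderivWithin ℝ (fun _ : Euc n => sg i) Set.univ (e q) (sg j) = (0 : Euc n)
      simp
    change (dm (Euc n) e q).inverse (mlieBracket 𝓘(ℝ, Euc n) (cst (sg i)) (cst (sg j)) (e q)) = 0
    rw [h4, map_zero]

variable {C : Fin n → VF (Euc n) M} {f : Fin n → SF (Euc n) M}

theorem IsCoord.near (h : IsCoord e z C f) : ∀ᶠ y in 𝓝 z, IsCoord e y C f := by
  filter_upwards [e.open_target.mem_nhds h.mem,
    eventually_all.2 fun i => (h.fld i).eventually_nhds,
    eventually_all.2 fun i => (h.fn i).eventually_nhds,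
    eventually_all.2 fun i => eventually_all.2 fun j => (h.brk i j).eventually_nhds]
    with y h1 h2 h3 h4 using ⟨h1, h2, h3, h4⟩

theorem IsCoord.at (h : IsCoord e z C f) (i : Fin n) : C i (e.symm z) = ds e z (sg i) :=
  (h.fld i).self_of_nhds

theorem IsCoord.coord (he : Mx e) (h : IsCoord e z C f) (m : Fin n) (a : Euc n) :
    mvfderiv 𝓘(ℝ, Euc n) (f m) (e.symm z) (ds e z a) = a m := by
  rw [d_ds he h.mem, Filter.EventuallyEq.fderiv_eq (h.fn m)]
  exact congrArg (fun T => T a) (EuclideanSpace.proj (𝕜 := ℝ) m).fderiv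

theorem IsCoord.expand (he : Mx e) (h : IsCoord e z C f) (v : Tan (Euc n) (e.symm z)) :
    v = ∑ k, mvfderiv 𝓘(ℝ, Euc n) (f k) (e.symm z) v • C k (e.symm z) := by
  obtain ⟨a, rfl⟩ := ds_surj he h.mem v
  simp only [h.coord he, h.at]
  exact ds_sum a

theorem IsCoord.delta (he : Mx e) (h : IsCoord e z C f) (m k : Fin n) :
    mvfderiv 𝓘(ℝ, Euc n) (f m) (e.symm z) (C k (e.symm z)) = if m = k then 1 else 0 := by
  rw [h.at, h.coord he]
  simp

theorem IsCoord.d (he : Mx e) (h : IsCoord e z C f) (i : Fin n) {φ : SF (Euc n) M}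
    {u : Euc n → ℝ} (hu : ∀ᶠ y in 𝓝 z, φ (e.symm y) = u y) :
    DVF (C i) φ (e.symm z) = pd i u z := by
  rw [DVF_apply, h.at, d_ds he h.mem, Filter.EventuallyEq.fderiv_eq hu]
  rfl

theorem IsCoord.tr_eq (he : Mx e) (h : IsCoord e z C f) (A : End (Euc n) (e.symm z)) :
    tr A = ∑ m, mvfderiv 𝓘(ℝ, Euc n) (f m) (e.symm z) (A (C m (e.symm z))) := by
  haveI : FiniteDimensional ℝ (Tan (Euc n) (e.symm z)) :=
    inferInstanceAs (FiniteDimensional ℝ (Euc n))
  have h1 : A = ∑ m, (mvfderiv 𝓘(ℝ, Euc n) (f m) (e.symm z)).toLinearMap.smulRight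
      (A (C m (e.symm z))) := by
    refine LinearMap.ext fun v => ?_
    conv_lhs => rw [h.expand he v]
    simp only [map_sum, map_smul, LinearMap.sum_apply, LinearMap.smulRight_apply,
      ContinuousLinearMap.coe_coe]
  unfold tr
  conv_lhs => rw [h1]
  simp only [map_sum, LinearMap.trace_smulRight, ContinuousLinearMap.coe_coe]

section inst

variable [RiemannianBundle fun p : M => TangentSpace 𝓘(ℝ, Euc n) p]
  [IsContMDiffRiemannianBundle 𝓘(ℝ, Euc n) ∞ (Euc n) fun p : M => TangentSpace 𝓘(ℝ, Euc n) p]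
  {D : Conn (Euc n) M} {R : Curv (Euc n) M}

variable (M) in
/-- the metric as a function -/
def tens : Tensor n M := fun _ u v => inner ℝ u v

theorem IsCoord.g (h : IsCoord e z C f) (i j : Fin n) :
    gVF (C i) (C j) (e.symm z) = inChart (tens M) e z i j := by
  rw [gVF_apply, h.at, h.at]
  rfl

theorem IsCoord.ipc (he : Mx e) (h : IsCoord e z C f) (v : Tan (Euc n) (e.symm z)) (l : Fin n) :
    inner ℝ v (C l (e.symm z)) =
      ∑ k, mvfderiv 𝓘(ℝ, Euc n) (f k) (e.symm z) v * inChart (tens M) e z k l := by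
  conv_lhs => rw [h.expand he v]
  simp only [sum_inner, real_inner_smul_left, ← h.g, gVF_apply]

theorem inChart_symm (i j : Fin n) : inChart (tens M) e z i j = inChart (tens M) e z j i :=
  real_inner_comm (ds e z (sg j)) (ds e z (sg i))

theorem IsCoord.unit (he : Mx e) (h : IsCoord e z C f) : IsUnit (inChart (tens M) e z).det := by
  rw [← Matrix.isUnit_iff_isUnit_det, ← Matrix.vecMul_injective_iff_isUnit]
  refine (injective_iff_map_eq_zero (Matrix.vecMulLinear _)).2 fun c hc => ?_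
  have h1 : ∀ l, inner ℝ (ds e z (WithLp.toLp 2 c)) (C l (e.symm z)) = 0 := fun l => by
    rw [h.ipc he]
    simp only [h.coord he]
    exact congrFun hc l
  have h2 : ds e z (WithLp.toLp 2 c) = 0 := by
    rw [← inner_self_eq_zero (𝕜 := ℝ)]
    refine (congrArg (inner ℝ (ds e z (WithLp.toLp 2 c)))
      (h.expand he (ds e z (WithLp.toLp 2 c)))).trans ?_
    simp only [inner_sum, real_inner_smul_right, h1, mul_zero, Finset.sum_const_zero]
  funext m
  have h3 := h.coord he m (WithLp.toLp 2 c)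
  rw [h2, map_zero] at h3
  exact h3.symm

/-- raising an index -/
theorem IsCoord.raise (he : Mx e) (h : IsCoord e z C f) (v : Tan (Euc n) (e.symm z)) (k : Fin n) :
    mvfderiv 𝓘(ℝ, Euc n) (f k) (e.symm z) v =
      ∑ l, (inChart (tens M) e z)⁻¹ k l * inner ℝ v (C l (e.symm z)) := by
  have h1 := Matrix.nonsing_inv_mul _ (h.unit he)
  simp only [h.ipc he, Finset.mul_sum]
  rw [Finset.sum_comm]
  have h2 : ∀ m, ∑ l, (inChart (tens M) e z)⁻¹ k l *
      (mvfderiv 𝓘(ℝ, Euc n) (f m) (e.symm z) v * inChart (tens M) e z m l) =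
      if k = m then mvfderiv 𝓘(ℝ, Euc n) (f m) (e.symm z) v else 0 := fun m => by
    have h3 := congrFun (congrFun h1 k) m
    rw [Matrix.mul_apply, Matrix.one_apply] at h3
    rw [← boole_mul, ← h3, Finset.sum_mul]
    exact Finset.sum_congr rfl fun l _ => by rw [inChart_symm m l]; ring
  simp only [h2, Finset.sum_ite_eq, Finset.mem_univ, if_true]

theorem IsCoord.brk0 (hD : IsLC D) (h : IsCoord e z C f) (i j : Fin n) :
    (lcOf hD).brk (C i) (C j) (e.symm z) = 0 :=
  (congrFun (brk_coe hD (C i) (C j)) _).trans (h.brk i j).self_of_nhds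

/-- the Christoffel symbols as global functions -/
def gam (hD : IsLC D) (C : Fin n → VF (Euc n) M) (f : Fin n → SF (Euc n) M) (k i j : Fin n) :
    SF (Euc n) M := DVF ((lcOf hD).nab (C i) (C j)) (f k)

theorem IsCoord.gam_eq (hD : IsLC D) (he : Mx e) (h : IsCoord e z C f) (k i j : Fin n) :
    gam hD C f k i j (e.symm z) = christoffel (inChart (tens M) e) z k i j := by
  have hg : ∀ a b c, DVF (C a) (gVF (C b) (C c)) (e.symm z) =
      pd a (fun y => inChart (tens M) e y b c) z :=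
    fun a b c => h.d he a (h.near.mono fun y hy => hy.g b c)
  have h0 : ∀ a b c, gVF ((lcOf hD).brk (C a) (C b)) (C c) (e.symm z) = 0 := fun a b c => by
    rw [gVF_apply, h.brk0 hD, inner_zero_left]
  unfold gam christoffel
  rw [DVF_apply, h.raise he, Finset.mul_sum]
  refine Finset.sum_congr rfl fun l _ => ?_
  have h1 := congrArg (evM (e.symm z)) (koszul (lcOf hD) (C i) (C j) (C l))
  simp only [map_mul, map_add, map_sub, map_ofNat] at h1
  have h2 : 2 * inner ℝ ((lcOf hD).nab (C i) (C j) (e.symm z)) (C l (e.symm z))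
    = DVF (C i) (gVF (C j) (C l)) (e.symm z) + DVF (C j) (gVF (C i) (C l)) (e.symm z)
      - DVF (C l) (gVF (C i) (C j)) (e.symm z) + gVF ((lcOf hD).brk (C i) (C j)) (C l) (e.symm z)
      - gVF ((lcOf hD).brk (C i) (C l)) (C j) (e.symm z)
      - gVF ((lcOf hD).brk (C j) (C l)) (C i) (e.symm z) := h1
  rw [h0, h0, h0, hg, hg, hg] at h2
  linear_combination (1 / 2 * (inChart (tens M) e z)⁻¹ k l) * h2

theorem nab_sum (G : LC (SF (Euc n) M) (VF (Euc n) M)) (X : VF (Euc n) M)
    (Y : Fin n → VF (Euc n) M) : G.nab X (∑ k, Y k) = ∑ k, G.nab X (Y k) :=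
  map_sum (AddMonoidHom.mk' (G.nab X) (G.nab_add X)) Y Finset.univ

theorem IsCoord.nab_nab (hD : IsLC D) (he : Mx e) (h : IsCoord e z C f) (l i j m : Fin n) :
    mvfderiv 𝓘(ℝ, Euc n) (f m) (e.symm z)
      ((lcOf hD).nab (C l) ((lcOf hD).nab (C i) (C j)) (e.symm z)) =
    pd l (fun y => christoffel (inChart (tens M) e) y m i j) z +
      ∑ k, christoffel (inChart (tens M) e) z m l k * christoffel (inChart (tens M) e) z k i j := by
  have h1 : ∀ᶠ q in 𝓝 (e.symm z),
      (lcOf hD).nab (C i) (C j) q = (∑ k, gam hD C f k i j • C k : VF (Euc n) M) q := by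
    refine (ev_iff h.mem).2 (h.near.mono fun y hy => ?_)
    rw [VF.sum_apply]
    exact hy.expand he _
  have h2 : (lcOf hD).nab (C l) ((lcOf hD).nab (C i) (C j)) (e.symm z) =
      (lcOf hD).nab (C l) (∑ k, gam hD C f k i j • C k) (e.symm z) :=
    congrArg (fun T => T (C l (e.symm z))) (D.isCovariantDerivativeOnUniv.congr_of_eventuallyEq
      (VF.mdiff _ _) (VF.mdiff _ _) univ_mem h1)
  rw [h2, nab_sum, VF.sum_apply, map_sum]
  have h3 : ∀ k, mvfderiv 𝓘(ℝ, Euc n) (f m) (e.symm z)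
      ((lcOf hD).nab (C l) (gam hD C f k i j • C k) (e.symm z)) =
      christoffel (inChart (tens M) e) z m l k * christoffel (inChart (tens M) e) z k i j +
      if m = k then pd l (fun y => christoffel (inChart (tens M) e) y k i j) z else 0 := fun k => by
    rw [LC.nab_smul, ContMDiffSection.coe_add, Pi.add_apply, smulVF_apply, smulVF_apply, map_add,
      map_smul, map_smul, h.delta he, ← h.gam_eq hD he, ← h.gam_eq hD he,
      ← h.d he l (h.near.mono fun y hy => hy.gam_eq hD he k i j), smul_eq_mul, smul_eq_mul,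
      mul_boole, mul_comm]
    rfl
  simp only [h3, Finset.sum_add_distrib, Finset.sum_ite_eq, Finset.mem_univ, if_true]
  ring

theorem ric_chart (hD : IsLC D) (hR : IsCurv D R) (he : Mx e) (hz : z ∈ e.target) (i j : Fin n) :
    tr (R (e.symm z) (ds e z (sg i)) (ds e z (sg j))) = ricci (inChart (tens M) e) z i j := by
  obtain ⟨C, f, h⟩ := exists_coord he hz
  rw [curv_iff hD] at hR
  rw [← h.at, ← h.at, h.tr_eq he]
  unfold ricci
  rw [← Finset.sum_add_distrib]
  refine Finset.sum_congr rfl fun k _ => ?_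
  have h0 : (lcOf hD).nab ((lcOf hD).brk (C k) (C i)) (C j) (e.symm z) = 0 := by
    change D (C j) (e.symm z) ((lcOf hD).brk (C k) (C i) (e.symm z)) = 0
    rw [h.brk0 hD, map_zero]
  rw [hR, LC.R, ContMDiffSection.coe_sub, ContMDiffSection.coe_sub, Pi.sub_apply, Pi.sub_apply, h0,
    sub_zero, map_sub, h.nab_nab hD he, h.nab_nab hD he, Finset.sum_sub_distrib]
  ring

theorem scal_chart (hD : IsLC D) (hR : IsCurv D R) (he : Mx e) (hz : z ∈ e.target)
    {A : End (Euc n) (e.symm z)} (hA : ∀ v w, inner ℝ (A v) w = tr (R (e.symm z) v w)) :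
    tr A = scalar (inChart (tens M) e) z := by
  obtain ⟨C, f, h⟩ := exists_coord he hz
  rw [h.tr_eq he]
  unfold scalar
  simp only [h.raise he, hA]
  simp only [h.at, ric_chart hD hR he hz]

end inst

end

end Vale.Agent.P244I
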