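import Vale.Agent.P244I69.Defs
import Vale.Agent.P211W98.LC

/-! Existence and uniqueness of the curvature tensor and of the scalar curvature. -/

set_option maxSynthPendingDepth 3
set_option linter.unusedSectionVars false

namespace Vale.Agent.P244I

open scoped Manifold ContDiff Topology
open Bundle Filter VectorField Vale.Agent.P211 Vale.Agent.P211Z

noncomputable section

theorem koszul {𝒪 V : Type*} [CommRing 𝒪] [Algebra ℝ 𝒪] [AddCommGroup V] [Module 𝒪 V]
    (G : LC 𝒪 V) (A B C : V) : 2 * G.g (G.nab A B) C = G.D A (G.g B C) + G.D B (G.g A C)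
    - G.D C (G.g A B) + G.g (G.brk A B) C - G.g (G.brk A C) B - G.g (G.brk B C) A := by
  simp only [LC.brk, G.g_sub_left, G.metric]
  rw [G.g_symm B (G.nab A C), G.g_symm A (G.nab B C), G.g_symm A (G.nab C B)]
  ring

variable {E : Type} [NormedAddCommGroup E] [NormedSpace ℝ E] [FiniteDimensional ℝ E]
  {M : Type} [TopologicalSpace M] [ChartedSpace E M] [Smooth E M] [T2Space M]

theorem lin_congr (Φ : VF E M →ₗ[SF E M] SF E M) {p : M} {X X' : VF E M}
    (h : X p = X' p) : Φ X p = Φ X' p := by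
  have h1 := lin_ptwise Φ (x := p) (Z := X - X')
    (by rw [ContMDiffSection.coe_sub, Pi.sub_apply, h, sub_self])
  rw [map_sub] at h1
  exact sub_eq_zero.1 h1

theorem smul_eq (c : ℝ) (X : VF E M) : c • X = algebraMap ℝ (SF E M) c • X := by
  ext y
  rw [smulVF_apply, Algebra.algebraMap_eq_smul_one]
  simp

section inst

variable [RiemannianBundle fun p : M => TangentSpace 𝓘(ℝ, E) p]
  [IsContMDiffRiemannianBundle 𝓘(ℝ, E) ∞ E fun p : M => TangentSpace 𝓘(ℝ, E) p]
  {D D' : Conn E M} {R : Curv E M}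

theorem eq_of_g {X Y : VF E M} {p : M} (h : ∀ W : VF E M, gVF X W p = gVF Y W p) : X p = Y p := by
  refine ext_inner_right ℝ fun w => ?_
  obtain ⟨W, rfl⟩ := exists_ext p w
  exact h W

theorem R_pt (hD : IsLC D) {X Y Z X' Y' Z' : VF E M} {p : M}
    (hX : X p = X' p) (hY : Y p = Y' p) (hZ : Z p = Z' p) :
    (lcOf hD).R X Y Z p = (lcOf hD).R X' Y' Z' p := by
  refine eq_of_g fun W => ?_
  have h := (lcOf hD).isT4_Rm
  change (lcOf hD).Rm X Y Z W p = (lcOf hD).Rm X' Y' Z' W p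
  set T := (lcOf hD).Rm
  exact ((lin_congr ⟨⟨fun X => T X Y Z W, fun a b => h.add1 a b Y Z W⟩,
      fun a b => h.smul1 a b Y Z W⟩ hX).trans
    (lin_congr ⟨⟨fun Y => T X' Y Z W, fun a b => h.add2 X' a b Z W⟩,
      fun a b => h.smul2 a X' b Z W⟩ hY)).trans
    (lin_congr ⟨⟨fun Z => T X' Y' Z W, fun a b => h.add3 X' Y' a b W⟩,
      fun a b => h.smul3 a X' Y' b W⟩ hZ)

theorem R_eq (hD : IsLC D) (X Y Z : VF E M) (x : M) :
    nab D X (nab D Y Z) x - nab D Y (nab D X Z) x - nab D (mlieBracket 𝓘(ℝ, E) X Y) Z x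
      = (lcOf hD).R X Y Z x := by
  rw [← brk_coe hD X Y]
  rfl

theorem curv_iff (hD : IsLC D) : IsCurv D R ↔
    ∀ (X Y Z : VF E M) (x : M), R x (Y x) (Z x) (X x) = (lcOf hD).R X Y Z x := by
  simp only [IsCurv, R_eq hD]

theorem exists_curv (hD : IsLC D) : ∃ R : Curv E M, IsCurv D R := by
  choose ex hex using fun (x : M) (v : Tan E x) => exists_ext (E := E) x v
  refine ⟨fun x v w => ⟨⟨fun u => (lcOf hD).R (ex x u) (ex x v) (ex x w) x, fun u u' => ?_⟩,
    fun c u => ?_⟩, (curv_iff hD).2 fun X Y Z x => R_pt hD (hex _ _) (hex _ _) (hex _ _)⟩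
  · rw [R_pt hD (X' := ex x u + ex x u') (by
      rw [ContMDiffSection.coe_add, Pi.add_apply, hex, hex, hex]) rfl rfl, LC.R_add1]
    rfl
  · change (lcOf hD).R (ex x (c • u)) (ex x v) (ex x w) x = c • _
    rw [R_pt hD (X' := c • ex x u) (by
      rw [ContMDiffSection.coe_smul, Pi.smul_apply, hex, hex]) rfl rfl, smul_eq, LC.R_smul1,
      ← smul_eq]
    rfl

theorem nab_eq (hD : IsLC D) (hD' : IsLC D') : (lcOf hD).nab = (lcOf hD').nab := by
  have hb : ∀ A B, (lcOf hD).brk A B = (lcOf hD').brk A B := fun A B =>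
    ContMDiffSection.coe_injective ((brk_coe hD A B).trans (brk_coe hD' A B).symm)
  funext A B
  ext p
  refine eq_of_g fun W => ?_
  have h1 := koszul (lcOf hD) A B W
  have h2 := koszul (lcOf hD') A B W
  rw [hb, hb, hb] at h1
  have h3 := congrArg (evM p) (h1.trans h2.symm)
  simp only [map_mul, map_ofNat] at h3
  exact mul_left_cancel₀ two_ne_zero h3

theorem curv_congr (hD : IsLC D) (hD' : IsLC D') (hR : IsCurv D R) : IsCurv D' R := by
  rw [curv_iff hD] at hR
  rw [curv_iff hD']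
  intro X Y Z x
  rw [hR]
  simp only [LC.R, LC.brk, nab_eq hD hD']

omit [RiemannianBundle fun p : M => TangentSpace 𝓘(ℝ, E) p]
  [IsContMDiffRiemannianBundle 𝓘(ℝ, E) ∞ E fun p : M => TangentSpace 𝓘(ℝ, E) p] in
theorem curv_unique {R' : Curv E M} (hR : IsCurv D R) (hR' : IsCurv D R') : R = R' := by
  funext x v w
  refine LinearMap.ext fun u => ?_
  obtain ⟨X, rfl⟩ := exists_ext x u
  obtain ⟨Y, rfl⟩ := exists_ext x v
  obtain ⟨Z, rfl⟩ := exists_ext x w
  rw [hR, hR']

/-- the curvature is bilinear in the two other slots -/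
theorem curv_bilin (hD : IsLC D) (hR : IsCurv D R) (x : M) :
    ∃ B : Tan E x →ₗ[ℝ] Tan E x →ₗ[ℝ] ℝ, ∀ v w, B v w = tr (R x v w) := by
  rw [curv_iff hD] at hR
  have key : ∀ {v w v₁ w₁ v₂ w₂ : Tan E x} {c : ℝ},
      (∀ u, R x v w u = c • R x v₁ w₁ u + R x v₂ w₂ u) →
      tr (R x v w) = c * tr (R x v₁ w₁) + tr (R x v₂ w₂) := by
    intro v w v₁ w₁ v₂ w₂ c h
    have : R x v w = c • R x v₁ w₁ + R x v₂ w₂ := LinearMap.ext h
    unfold tr
    rw [this, map_add, map_smul, smul_eq_mul]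
  have h2 : ∀ (c : ℝ) (v v' w : Tan E x),
      tr (R x (c • v + v') w) = c * tr (R x v w) + tr (R x v' w) := by
    intro c v v' w
    refine key fun u => ?_
    obtain ⟨X, rfl⟩ := exists_ext x u
    obtain ⟨Y, rfl⟩ := exists_ext x v
    obtain ⟨Y', rfl⟩ := exists_ext x v'
    obtain ⟨Z, rfl⟩ := exists_ext x w
    refine (hR X (c • Y + Y') Z x).trans ?_
    rw [hR, hR, LC.R_add2, smul_eq, LC.R_smul2, ← smul_eq]
    rfl
  have h3 : ∀ (c : ℝ) (v w w' : Tan E x),
      tr (R x v (c • w + w')) = c * tr (R x v w) + tr (R x v w') := by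
    intro c v w w'
    refine key fun u => ?_
    obtain ⟨X, rfl⟩ := exists_ext x u
    obtain ⟨Y, rfl⟩ := exists_ext x v
    obtain ⟨Z, rfl⟩ := exists_ext x w
    obtain ⟨Z', rfl⟩ := exists_ext x w'
    refine (hR X Y (c • Z + Z') x).trans ?_
    rw [hR, hR, LC.R_add3, smul_eq, LC.R_smul3, ← smul_eq]
    rfl
  have z2 : ∀ w : Tan E x, tr (R x 0 w) = 0 := fun w => by
    have := h2 1 0 0 w
    rw [one_smul, add_zero] at this
    linarith
  have z3 : ∀ v : Tan E x, tr (R x v 0) = 0 := fun v => by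
    have := h3 1 v 0 0
    rw [one_smul, add_zero] at this
    linarith
  refine ⟨LinearMap.mk₂ ℝ (fun v w => tr (R x v w)) (fun v v' w => ?_) (fun c v w => ?_)
    (fun v w w' => ?_) (fun c v w => ?_), fun _ _ => rfl⟩
  · have := h2 1 v v' w
    rwa [one_smul, one_mul] at this
  · have := h2 c v 0 w
    rwa [add_zero, z2, add_zero] at this
  · have := h3 1 v w w'
    rwa [one_smul, one_mul] at this
  · have := h3 c v w 0
    rwa [add_zero, z3, add_zero] at this

theorem exists_end (x : M) (B : Tan E x →ₗ[ℝ] Tan E x →ₗ[ℝ] ℝ) :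
    ∃ A : End E x, ∀ v w, inner ℝ (A v) w = B v w := by
  haveI : FiniteDimensional ℝ (TangentSpace 𝓘(ℝ, E) x) := inferInstanceAs (FiniteDimensional ℝ E)
  let b := stdOrthonormalBasis ℝ (TangentSpace 𝓘(ℝ, E) x)
  refine ⟨∑ i, (B.flip (b i)).smulRight (b i), fun v w => ?_⟩
  conv_rhs => rw [← b.sum_repr' w]
  simp only [LinearMap.sum_apply, LinearMap.smulRight_apply, sum_inner, real_inner_smul_left,
    map_sum, map_smul, LinearMap.flip_apply, smul_eq_mul]
  exact Finset.sum_congr rfl fun i _ => mul_comm _ _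

end inst

variable {g : Met E M} {D D' : Conn E M} {R : Curv E M}

/-- the scalar products given by `g` -/
abbrev rb (g : Met E M) : RiemannianBundle fun p : M => TangentSpace 𝓘(ℝ, E) p :=
  ⟨g.toRiemannianMetric⟩

theorem IsLeviCivita.lc (h : IsLeviCivita g D) : letI := rb g; IsLC D :=
  letI := rb g
  ⟨h.smooth, fun X Y x => ((CovariantDerivative.torsion_eq_zero_iff D).1 h.torsion)
      (VF.mdiff X x) (VF.mdiff Y x), h.metric⟩

theorem exists_lc (g : Met E M) : ∃ D, IsLeviCivita g D := by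
  letI := rb g
  obtain ⟨D, hD⟩ := P211W.exists_lc (E := E) (M := M)
  exact ⟨D, hD.smooth, hD.torsion, fun X Y Z x =>
    hD.metric.mvfderiv_inner_eq X (VF.mdiff Y x) (VF.mdiff Z x)⟩

theorem IsRiem.curv (hR : IsRiem g R) (hD : IsLeviCivita g D) : IsCurv D R := by
  letI := rb g
  obtain ⟨D', h1, h2⟩ := hR
  exact curv_congr h1.lc hD.lc h2

theorem exu_riem (g : Met E M) : ∃! R, IsRiem g R := by
  letI := rb g
  obtain ⟨D, hD⟩ := exists_lc g
  obtain ⟨R, hR⟩ := exists_curv hD.lc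
  exact ⟨R, ⟨D, hD, hR⟩, fun R' h => curv_unique (h.curv hD) hR⟩

theorem IsRiem.bilin (hR : IsRiem g R) (x : M) :
    ∃ B : Tan E x →ₗ[ℝ] Tan E x →ₗ[ℝ] ℝ, ∀ v w, B v w = tr (R x v w) := by
  letI := rb g
  obtain ⟨D, h1, h2⟩ := hR
  exact curv_bilin h1.lc h2 x

theorem exu_scal (g : Met E M) : ∃! S, IsScal g S := by
  letI := rb g
  obtain ⟨R, hR, hu⟩ := exu_riem g
  choose B hB using hR.bilin
  choose A hA using fun x => exists_end x (B x)
  refine ⟨fun x => tr (A x), ⟨R, hR, fun x => ⟨A x, fun v w => (hA x v w).trans (hB x v w), rfl⟩⟩,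
    ?_⟩
  rintro S ⟨R', hR', h⟩
  obtain rfl := hu R' hR'
  funext x
  obtain ⟨A', h1, h2⟩ := h x
  rw [h2]
  congr 1
  exact LinearMap.ext fun v => ext_inner_right ℝ fun w =>
    (h1 v w).trans ((hA x v w).trans (hB x v w)).symm

end

end Vale.Agent.P244I
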