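import Mathlib.Geometry.Manifold.VectorBundle.CovariantDerivative.Torsion
import Mathlib.Geometry.Manifold.VectorBundle.Riemannian
import Mathlib.Analysis.InnerProductSpace.PiL2
import Mathlib.LinearAlgebra.Trace

/-! P244: Riemannian metrics, Levi-Civita connection, curvature and Ricci flows, without charts.
The manifold `M` is modelled on the vector space `E`. -/

namespace Vale.Agent.P244I

open scoped Manifold ContDiff
open Bundle Set VectorField

noncomputable section

/-- Euclidean `n`-space -/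
abbrev Euc (n : ℕ) : Type := EuclideanSpace ℝ (Fin n)

variable (E : Type) [NormedAddCommGroup E] [NormedSpace ℝ E]

/-- bilinear forms on `E` -/
abbrev Bil : Type := E →L[ℝ] E →L[ℝ] ℝ

variable (M : Type) [TopologicalSpace M] [ChartedSpace E M]

/-- `M` is a smooth manifold without boundary. -/
abbrev Smooth : Prop := IsManifold 𝓘(ℝ, E) ∞ M

variable {M} in
/-- the tangent space at `x` -/
abbrev Tan (x : M) : Type := TangentSpace 𝓘(ℝ, E) x

variable {M} in
/-- bilinear forms on the tangent space at `x` -/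
abbrev Form (x : M) : Type := Tan E x →L[ℝ] Tan E x →L[ℝ] ℝ

variable {M} in
/-- endomorphisms of the tangent space at `x` -/
abbrev End (x : M) : Type := Tan E x →ₗ[ℝ] Tan E x

/-- vector fields -/
abbrev Fld : Type := (x : M) → Tan E x

/-- curvature tensors: `R x v w` is the endomorphism `u ↦ R(u, v) w` -/
abbrev Curv : Type := (x : M) → Tan E x → Tan E x → End E x

variable [Smooth E M]

/-- smooth Riemannian metrics -/
abbrev Met : Type := ContMDiffRiemannianMetric 𝓘(ℝ, E) ∞ E (Tan E : M → Type)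

/-- connections on the tangent bundle -/
abbrev Conn : Type := CovariantDerivative 𝓘(ℝ, E) E (Tan E : M → Type)

/-- smooth vector fields -/
abbrev Vec : Type := Cₛ^∞⟮𝓘(ℝ, E); E, (Tan E : M → Type)⟯

variable {E M}

/-- the scalar product `g(v, w)` at `x` -/
def ip (g : Met E M) (x : M) (v w : Tan E x) : ℝ := g.inner x v w

/-- the field `∇_X Y` -/
def nab (D : Conn E M) (X Y : Fld E M) : Fld E M := fun x => D Y x (X x)

omit [Smooth E M] in
/-- the trace of an endomorphism -/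
def tr {x : M} (A : End E x) : ℝ := LinearMap.trace ℝ (Tan E x) A

/-- `R` is the curvature tensor `R(X, Y) Z = ∇_X ∇_Y Z - ∇_Y ∇_X Z - ∇_[X,Y] Z` of `D`. -/
def IsCurv (D : Conn E M) (R : Curv E M) : Prop :=
  ∀ (X Y Z : Vec E M) (x : M), R x (Y x) (Z x) (X x) =
    nab D X (nab D Y Z) x - nab D Y (nab D X Z) x - nab D (mlieBracket 𝓘(ℝ, E) X Y) Z x

/-- `(t, x) ↦ g(t)_x` is smooth on `[0, T) × M` as a map to the bundle of bilinear forms. -/
def SmoothFamily (g : ℝ → Met E M) (T : ℝ) : Prop :=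
  ContMDiffOn (𝓘(ℝ).prod 𝓘(ℝ, E)) (𝓘(ℝ, E).prod 𝓘(ℝ, Bil E)) ∞
    (fun p : ℝ × M => (⟨p.2, (g p.1).inner p.2⟩ : TotalSpace (Bil E) (Form E : M → Type)))
    (Ico 0 T ×ˢ univ)

variable [FiniteDimensional ℝ E]

/-- `D` is a Levi-Civita connection of `g`: smooth, torsion free and
`X g(Y, Z) = g(∇_X Y, Z) + g(Y, ∇_X Z)`. -/
structure IsLeviCivita (g : Met E M) (D : Conn E M) : Prop where
  smooth : D.ContMDiffCovariantDerivative ∞
  torsion : D.torsion = 0
  metric : ∀ (X Y Z : Vec E M) (x : M), mvfderiv 𝓘(ℝ, E) (fun y => ip g y (Y y) (Z y)) x (X x) =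
    ip g x (nab D X Y x) (Z x) + ip g x (Y x) (nab D X Z x)

/-- `R` is the curvature tensor of the metric `g`; so `Ric(v, w) = tr (R x v w)`. -/
def IsRiem (g : Met E M) (R : Curv E M) : Prop := ∃ D, IsLeviCivita g D ∧ IsCurv D R

/-- `S` is the scalar curvature `tr_g Ric` of `g`: the trace of the endomorphism `A` with
`g(A v, w) = Ric(v, w)`. -/
def IsScal (g : Met E M) (S : M → ℝ) : Prop :=
  ∃ R, IsRiem g R ∧ ∀ x : M, ∃ A : End E x, (∀ v w, ip g x (A v) w = tr (R x v w)) ∧ S x = tr A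

/-- `g(t)`, `0 ≤ t < T`, is a smooth Ricci flow: `∂_t g = -2 Ric`. -/
def IsRicciFlow (g : ℝ → Met E M) (T : ℝ) : Prop :=
  SmoothFamily g T ∧ ∀ t ∈ Ico 0 T, ∃ R, IsRiem (g t) R ∧ ∀ (x : M) (v w : Tan E x),
    HasDerivWithinAt (fun s => ip (g s) x v w) (-2 * tr (R x v w)) (Ico 0 T) t

/-- The scalar curvature is bounded on `M × [0, T)`. -/
def BoundedScal (g : ℝ → Met E M) (T : ℝ) : Prop :=
  ∃ C : ℝ, ∀ t ∈ Ico 0 T, ∃ S, IsScal (g t) S ∧ ∀ x, |S x| ≤ C

/-- The flow extends past `T`. -/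
def ExtendsPast (g : ℝ → Met E M) (T : ℝ) : Prop :=
  ∃ ε > 0, ∃ g' : ℝ → Met E M, IsRicciFlow g' (T + ε) ∧ ∀ t ∈ Ico 0 T, g' t = g t

variable (E M) in
/-- Every smooth Ricci flow on `M` on a bounded interval `[0, T)` with bounded scalar curvature
extends past `T`. -/
def Extension : Prop :=
  ∀ (T : ℝ) (g : ℝ → Met E M), 0 < T → IsRicciFlow g T → BoundedScal g T → ExtendsPast g T

end

end Vale.Agent.P244I
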