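import Vale.Agent.P244I69.Chart

/-! Ricci flows without charts and Ricci flows in charts. -/

set_option maxSynthPendingDepth 3
set_option linter.unusedSectionVars false
set_option linter.style.haveILetI false

namespace Vale.Agent.P244I

open scoped Manifold ContDiff Topology
open Bundle Filter Set IsManifold Vale.Agent.P211 Vale.Agent.P211Z Vale.Agent.P244Z
open Vale.Agent.P244Z.Geo (pd christoffel ricci scalar inChart Tensor IsInner IsMetric scalarCurv)

noncomputable section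

variable {n : ℕ}

/-- the continuous bilinear form of an inner product -/
def bil {b : Euc n → Euc n → ℝ} (h : IsInner b) : Bil (Euc n) :=
  LinearMap.toContinuousLinearMap (LinearMap.toContinuousLinearMap.toLinearMap ∘ₗ
    LinearMap.mk₂ ℝ b
      (fun u u' v => by rw [h.symm, (h.lin v).map_add, h.symm v, h.symm v])
      (fun c u v => by rw [h.symm, (h.lin v).map_smul, h.symm v])
      (fun u => (h.lin u).map_add) fun c u v => (h.lin u).map_smul c v)

theorem bdd {B : Bil (Euc n)} (h : ∀ v, v ≠ 0 → 0 < B v v) :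
    Bornology.IsVonNBounded ℝ {v | B v v < 1} := by
  obtain ⟨c, hc, h1⟩ := (isCompact_sphere (0 : Euc n) 1).exists_forall_le' (f := fun v => B v v)
    (B.continuous₂.comp (continuous_id.prodMk continuous_id)).continuousOn
    fun v hv => h v (ne_zero_of_mem_unit_sphere ⟨v, hv⟩)
  rw [NormedSpace.isVonNBounded_iff, isBounded_iff_forall_norm_le]
  refine ⟨√(1 / c), fun v (hv : B v v < 1) => Real.le_sqrt_of_sq_le ?_⟩
  rcases eq_or_ne v 0 with rfl | h0
  · simp [hc.le]
  · have h2 := norm_pos_iff.2 h0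
    have h3 := h1 (‖v‖⁻¹ • v) (by simp [norm_smul, h2.ne'])
    simp only [map_smul, smul_apply, smul_eq_mul] at h3
    rw [← mul_assoc, ← mul_inv, le_inv_mul_iff₀ (by positivity)] at h3
    rw [le_div_iff₀ hc, sq]
    exact h3.trans hv.le

/-- the form `v i * w j` -/
def el (i j : Fin n) : Bil (Euc n) :=
  (EuclideanSpace.proj (𝕜 := ℝ) i).smulRight (EuclideanSpace.proj (𝕜 := ℝ) j)

variable {M : Type} [TopologicalSpace M] [ChartedSpace (Euc n) M] [Smooth (Euc n) M] [T2Space M]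
  {e : OpenPartialHomeomorph M (Euc n)} {z : Euc n}

theorem lin_ds (B : Tan (Euc n) (e.symm z) →ₗ[ℝ] Tan (Euc n) (e.symm z) →ₗ[ℝ] ℝ) (a b : Euc n) :
    B (ds e z a) (ds e z b) = ∑ i, ∑ j, a i * b j * B (ds e z (sg i)) (ds e z (sg j)) := by
  rw [ds_sum a, ds_sum b]
  simp only [map_sum, map_smul, LinearMap.sum_apply, LinearMap.smul_apply, smul_eq_mul,
    Finset.mul_sum]
  rw [Finset.sum_comm]
  exact Finset.sum_congr rfl fun i _ => Finset.sum_congr rfl fun j _ => by ring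

theorem form_ds (B : Form (Euc n) (e.symm z)) (a b : Euc n) :
    B (ds e z a) (ds e z b) = ∑ i, ∑ j, a i * b j * B (ds e z (sg i)) (ds e z (sg j)) :=
  lin_ds (LinearMap.mk₂ ℝ (fun v w => B v w) (fun _ _ _ => by rw [map_add]; rfl)
    (fun _ _ _ => by rw [map_smul]; rfl) (fun _ _ _ => map_add _ _ _)
    fun _ _ _ => map_smul _ _ _) a b

theorem in_coord {a x : M} (hx : x ∈ (chartAt (Euc n) a).source) (β : Form (Euc n) x)
    (τ : Tensor n M) (h : ∀ u v, β u v = τ x u v) :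
    ContinuousLinearMap.inCoordinates (Euc n) (Tan (Euc n) : M → Type) (Euc n →L[ℝ] ℝ)
      (fun y : M => Tan (Euc n) y →L[ℝ] ℝ) a x a x β =
      ∑ i, ∑ j, inChart τ (chartAt (Euc n) a) (chartAt (Euc n) a x) i j • el i j := by
  obtain ⟨z, hz, rfl⟩ : ∃ z ∈ (chartAt (Euc n) a).target, (chartAt (Euc n) a).symm z = x :=
    ⟨_, (chartAt (Euc n) a).map_source hx, (chartAt (Euc n) a).left_inv hx⟩
  have h5 : ∀ v, (trivializationAt (Euc n) (Tan (Euc n) : M → Type) a).symm
      ((chartAt (Euc n) a).symm z) v = ds (chartAt (Euc n) a) z v := fun v => by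
    rw [← Trivialization.symmL_apply (R := ℝ) _ hx, TangentBundle.symmL_trivializationAt hx,
      ModelWithCorners.range_eq_univ, mfderivWithin_univ]
    have : extChartAt 𝓘(ℝ, Euc n) a ((chartAt (Euc n) a).symm z) = z :=
      (chartAt (Euc n) a).right_inv hz
    let Φ : Euc n → Euc n := fun y =>
      mfderiv 𝓘(ℝ, Euc n) 𝓘(ℝ, Euc n) (chartAt (Euc n) a).symm y v
    exact congrArg Φ this
  refine ContinuousLinearMap.ext fun v => ContinuousLinearMap.ext fun w => ?_
  refine (inCoordinates_apply_eq₂ (E₃ := Bundle.Trivial M ℝ) hx hx (mem_univ _)).trans ?_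
  rw [h5, h5, form_ds, (chartAt (Euc n) a).right_inv hz]
  simp only [Trivial.fiberBundle_trivializationAt', Trivial.linearMapAt_trivialization,
    LinearMap.id_coe, id_eq, sum_apply, h]
  refine Finset.sum_congr rfl fun i _ => Finset.sum_congr rfl fun j _ => ?_
  exact (mul_comm _ _).trans rfl

theorem sm_total {F H N : Type} [NormedAddCommGroup F] [NormedSpace ℝ F] [TopologicalSpace H]
    {J : ModelWithCorners ℝ F H} [TopologicalSpace N] [ChartedSpace H N] {b : N → M}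
    {β : (p : N) → Form (Euc n) (b p)} {τ : N → Tensor n M} {s : Set N} {p₀ : N}
    (hb : ContMDiffWithinAt J 𝓘(ℝ, Euc n) ∞ b s p₀) (h : ∀ p u v, β p u v = τ p (b p) u v)
    (hs : ∀ i j, ContMDiffWithinAt J 𝓘(ℝ) ∞ (fun p =>
      inChart (τ p) (chartAt (Euc n) (b p₀)) (chartAt (Euc n) (b p₀) (b p)) i j) s p₀) :
    ContMDiffWithinAt J (𝓘(ℝ, Euc n).prod 𝓘(ℝ, Bil (Euc n))) ∞
      (fun p => (⟨b p, β p⟩ : TotalSpace (Bil (Euc n)) (Form (Euc n) : M → Type))) s p₀ := by
  rw [contMDiffWithinAt_hom_bundle]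
  refine ⟨hb, ?_⟩
  have h1 : ContMDiffWithinAt J 𝓘(ℝ, Bil (Euc n)) ∞ (fun p => ∑ i, ∑ j,
      inChart (τ p) (chartAt (Euc n) (b p₀)) (chartAt (Euc n) (b p₀) (b p)) i j • el i j) s p₀ :=
    contMDiffWithinAt_finsetSum fun i _ => contMDiffWithinAt_finsetSum fun j _ =>
      (hs i j).smul contMDiffWithinAt_const
  refine h1.congr_of_eventuallyEq ?_ (in_coord (mem_chart_source _ _) _ _ (h p₀))
  filter_upwards [hb.continuousWithinAt.preimage_mem_nhdsWithin (chart_source_mem_nhds (Euc n) _)]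
    with p hp using in_coord hp _ _ (h p)

/-- the metric given by a tensor which is smooth in the charts -/
def toMet (τ : Tensor n M) (hm : IsMetric τ) (hs : ∀ e ∈ atlas (Euc n) M, ∀ i j,
    ContDiffOn ℝ ∞ (fun y => inChart τ e y i j) e.target) : Met (Euc n) M where
  inner x := bil (hm x)
  symm x := (hm x).symm
  pos x := (hm x).pos
  isVonNBounded x := bdd (B := bil (hm x)) (hm x).pos
  contMDiff a := by
    rw [← contMDiffWithinAt_univ]
    refine sm_total (b := id) (τ := fun _ => τ) contMDiffWithinAt_id (fun _ _ _ => rfl)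
      fun i j => ContMDiffAt.contMDiffWithinAt ?_
    exact ((hs _ (chart_mem_atlas _ a) i j).contDiffAt ((chartAt _ a).open_target.mem_nhds
      (mem_chart_target _ a))).comp_contMDiffAt
        ((contMDiffOn_chart (I := 𝓘(ℝ, Euc n)) (n := ∞) (x := a)).contMDiffAt
          (chart_source_mem_nhds _ a))

/-- the metric as a function -/
def tn (g : Met (Euc n) M) : Tensor n M := fun x u v => ip g x u v

theorem IsRiem.chart {g : Met (Euc n) M} {R : Curv (Euc n) M} (hR : IsRiem g R) (he : Mx e)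
    (hz : z ∈ e.target) (i j : Fin n) :
    tr (R (e.symm z) (ds e z (sg i)) (ds e z (sg j))) = ricci (inChart (tn g) e) z i j := by
  letI := rb g
  obtain ⟨D, h1, h2⟩ := hR
  exact ric_chart h1.lc h2 he hz i j

theorem IsScal.chart {g : Met (Euc n) M} {S : M → ℝ} (hS : IsScal g S) (x : M) :
    S x = scalarCurv (tn g) x := by
  letI := rb g
  obtain ⟨R, ⟨D, h1, h2⟩, h3⟩ := hS
  have hx := mem_chart_source (Euc n) x
  obtain ⟨A, h4, h5⟩ := h3 ((chartAt (Euc n) x).symm (chartAt (Euc n) x x))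
  have h6 := scal_chart h1.lc h2 (subset_maximalAtlas (chart_mem_atlas _ x))
    ((chartAt (Euc n) x).map_source hx) h4
  rw [← h5, (chartAt (Euc n) x).left_inv hx] at h6
  exact h6

variable {g : ℝ → Met (Euc n) M} {T : ℝ}

theorem IsRicciFlow.chart (h : IsRicciFlow g T) : Geo.IsRicciFlow (fun t => tn (g t)) T where
  metric t _ x := ⟨fun u => ⟨((g t).inner x u).map_add, ((g t).inner x u).map_smul⟩,
    (g t).symm x, (g t).pos x⟩
  smooth e he i j := by
    rintro ⟨t, z⟩ ⟨ht, hz⟩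
    have he' : Mx e := subset_maximalAtlas he
    obtain ⟨C, f, hC⟩ := exists_coord he' hz
    have hX : ∀ X : VF (Euc n) M, ContMDiffWithinAt (𝓘(ℝ).prod 𝓘(ℝ, Euc n))
        (𝓘(ℝ, Euc n).prod 𝓘(ℝ, Euc n)) ∞ (fun p : ℝ × M => TotalSpace.mk' (Euc n) p.2 (X p.2))
        (Ico 0 T ×ˢ univ) (t, e.symm z) :=
      fun X => (X.contMDiff.comp contMDiff_snd).contMDiffAt.contMDiffWithinAt
    have h1 : ContMDiffWithinAt (𝓘(ℝ).prod 𝓘(ℝ, Euc n)) (𝓘(ℝ, Euc n).prod 𝓘(ℝ)) ∞
        (fun p : ℝ × M => TotalSpace.mk' ℝ (E := Bundle.Trivial M ℝ) p.2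
          ((g p.1).inner p.2 (C i p.2) (C j p.2))) (Ico 0 T ×ˢ univ) (t, e.symm z) :=
      ContMDiffWithinAt.clm_bundle_apply₂ (F₁ := Euc n) (F₂ := Euc n)
        (h.1 (t, e.symm z) ⟨ht, mem_univ _⟩) (hX _) (hX _)
    have h2 := (contMDiffWithinAt_totalSpace.1 h1).2
    have h3 : ContMDiffWithinAt 𝓘(ℝ, ℝ × Euc n) (𝓘(ℝ).prod 𝓘(ℝ, Euc n)) ∞
        (fun p : ℝ × Euc n => (p.1, e.symm p.2)) (Ico 0 T ×ˢ e.target) (t, z) :=
      contDiff_fst.contMDiff.contMDiffAt.contMDiffWithinAt.prodMk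
        (((contMDiffOn_symm_of_mem_maximalAtlas he').contMDiffAt
          (e.open_target.mem_nhds hz)).comp (t, z)
            contDiff_snd.contMDiff.contMDiffAt).contMDiffWithinAt
    have h4 := contMDiffWithinAt_iff_contDiffWithinAt.1
      (ContMDiffWithinAt.comp (t, z) (f := fun p : ℝ × Euc n => (p.1, e.symm p.2)) h2 h3
        fun p hp => mem_prod.2 ⟨hp.1, mem_univ _⟩)
    have h5 : ∀ᶠ p : ℝ × Euc n in 𝓝 (t, z), inChart (tn (g p.1)) e p.2 i j =
        (g p.1).inner (e.symm p.2) (C i (e.symm p.2)) (C j (e.symm p.2)) := by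
      filter_upwards [continuous_snd.continuousAt.eventually hC.near] with p hp
      rw [hp.at, hp.at]
      rfl
    exact h4.congr_of_eventuallyEq (h5.filter_mono nhdsWithin_le_nhds) h5.self_of_nhds
  flow e he t ht y hy i j := by
    obtain ⟨R, hR, h1⟩ := h.2 t ht
    rw [← hR.chart (subset_maximalAtlas he) hy]
    exact h1 _ _ _

theorem flow_of_chart (h : Geo.IsRicciFlow (fun t => tn (g t)) T) : IsRicciFlow g T := by
  refine ⟨?_, fun t ht => ?_⟩
  · rintro ⟨t, a⟩ ⟨ht, -⟩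
    refine sm_total (b := Prod.snd) (τ := fun p => tn (g p.1)) contMDiffWithinAt_snd
      (fun _ _ _ => rfl) fun i j => ?_
    have h1 := (h.smooth _ (chart_mem_atlas _ a) i j (t, chartAt (Euc n) a a)
      ⟨ht, mem_chart_target _ a⟩).mono_of_mem_nhdsWithin (t := Ico 0 T ×ˢ univ) (by
        filter_upwards [self_mem_nhdsWithin, nhdsWithin_le_nhds (continuous_snd.continuousAt
          ((chartAt (Euc n) a).open_target.mem_nhds (mem_chart_target _ a)))] with p h1 h2
        exact ⟨h1.1, h2⟩)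
    have h2 : ContMDiffWithinAt (𝓘(ℝ).prod 𝓘(ℝ, Euc n)) 𝓘(ℝ, ℝ × Euc n) ∞
        (fun p : ℝ × M => (p.1, chartAt (Euc n) a p.2)) (Ico 0 T ×ˢ univ) (t, a) :=
      contMDiffWithinAt_fst.prodMk_space
        (((contMDiffOn_chart (I := 𝓘(ℝ, Euc n)) (n := ∞) (x := a)).contMDiffAt
          (chart_source_mem_nhds _ a)).comp (t, a) contMDiffAt_snd).contMDiffWithinAt
    exact ContDiffWithinAt.comp_contMDiffWithinAt (x := (t, a))
      (f := fun p : ℝ × M => (p.1, chartAt (Euc n) a p.2)) h1 h2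
      fun p hp => mem_prod.2 ⟨hp.1, mem_univ _⟩
  · obtain ⟨R, hR, -⟩ := exu_riem (g t)
    refine ⟨R, hR, fun x v w => ?_⟩
    obtain ⟨e, he, z, hz, rfl⟩ : ∃ e ∈ atlas (Euc n) M, ∃ z ∈ e.target, e.symm z = x :=
      ⟨_, chart_mem_atlas _ x, _, mem_chart_target _ x,
        (chartAt (Euc n) x).left_inv (mem_chart_source _ x)⟩
    have he' : Mx e := subset_maximalAtlas he
    obtain ⟨a, rfl⟩ := ds_surj he' hz v
    obtain ⟨b, rfl⟩ := ds_surj he' hz w
    obtain ⟨B, hB⟩ := hR.bilin (e.symm z)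
    have h1 := HasDerivWithinAt.fun_sum (u := Finset.univ) fun i _ =>
      HasDerivWithinAt.fun_sum (u := Finset.univ) fun j _ =>
        (h.flow e he t ht z hz i j).const_mul (a i * b j)
    refine (h1.congr_deriv ?_).congr (fun s _ => form_ds _ a b) (form_ds _ a b)
    rw [← hB, lin_ds]
    simp only [hB, hR.chart he' hz, Finset.mul_sum]
    exact Finset.sum_congr rfl fun i _ => Finset.sum_congr rfl fun j _ => by ring

theorem chart_congr {τ τ' : ℝ → Tensor n M} (h : Geo.IsRicciFlow τ T)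
    (he : ∀ t ∈ Ico 0 T, τ' t = τ t) : Geo.IsRicciFlow τ' T where
  metric t ht := he t ht ▸ h.metric t ht
  smooth e h1 i j := (h.smooth e h1 i j).congr fun p hp => by rw [he _ hp.1]
  flow e h1 t ht y hy i j := by
    rw [he t ht]
    exact (h.flow e h1 t ht y hy i j).congr (fun s hs => by rw [he s hs]) (by rw [he t ht])

theorem not_extension {τ : ℝ → Tensor n M} (hT : 0 < T) (h : Geo.IsRicciFlow τ T)
    (hb : ∃ C : ℝ, ∀ t ∈ Ico 0 T, ∀ x, |scalarCurv (τ t) x| ≤ C) (hn : ¬ Geo.ExtendsPast τ T) :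
    ¬ Extension (Euc n) M := by
  have h1 : ∀ t ∈ Ico 0 T, ∃ m : Met (Euc n) M, tn m = τ t := fun t ht =>
    ⟨toMet (τ t) (h.metric t ht) fun e he i j => (h.smooth e he i j).comp
      (contDiffOn_const.prodMk contDiffOn_id) fun y hy => ⟨ht, hy⟩, rfl⟩
  obtain ⟨m₀, -⟩ := h1 0 ⟨le_rfl, hT⟩
  have : Nonempty (Met (Euc n) M) := ⟨m₀⟩
  choose! g hg using h1
  intro hE
  obtain ⟨C, hC⟩ := hb
  obtain ⟨ε, hε, g', h2, h3⟩ := hE T g hT (flow_of_chart (chart_congr h hg)) ⟨C, fun t ht => by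
    obtain ⟨S, hS, -⟩ := exu_scal (g t)
    exact ⟨S, hS, fun x => by rw [hS.chart, hg t ht]; exact hC t ht x⟩⟩
  exact hn ⟨ε, hε, _, h2.chart, fun t ht => by rw [← hg t ht, ← h3 t ht]⟩

end

theorem counter {n : ℕ} (h : Geo.Counterexample n) :
    ∃ (M : Type) (_ : TopologicalSpace M) (_ : T2Space M) (_ : CompactSpace M)
      (_ : ConnectedSpace M) (_ : ChartedSpace (Euc n) M) (_ : Smooth (Euc n) M),
      ¬ Extension (Euc n) M := by
  obtain ⟨M, _, _, _, _, _, _, T, τ, hT, h1, h2, h3⟩ := h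
  exact ⟨M, _, ‹_›, ‹_›, ‹_›, _, ‹_›, not_extension hT h1 h2 h3⟩

end Vale.Agent.P244I
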